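import Mathlib

set_option autoImplicit false
set_option linter.unusedSectionVars false
set_option linter.unusedVariables false
set_option linter.unnecessarySeqFocus false

/-! # Metric Markov cotype 2 of `ℓ₁`: the abstract cut-space core.

Own proof.  Data: a stationary Markov kernel `A`, a finite family of weighted cuts `a ω : ι → {0,1}`.
Smoothing: `u ω i = (B (a ω)) i` with `B = (1/m) ∑_{s=1}^m A^s`, then the median-of-three function
`φ(u) = 3u² - 2u³` is applied cut by cut.  The Hilbert part is a fourth-moment telescoping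
along the chain. -/

namespace Crest.Agent.MarkovCotype

open Finset

/-! ## Scalar facts -/

/-- Median-of-three distortion. -/
def phi (u : ℝ) : ℝ := 3 * u ^ 2 - 2 * u ^ 3

/-- The divided difference of `phi`. -/
def psi (a b : ℝ) : ℝ := 3 * (a + b) - 2 * (a ^ 2 + a * b + b ^ 2)

lemma phi_sub (a b : ℝ) : phi a - phi b = (a - b) * psi a b := by
  unfold phi psi; ring

lemma psi_sq_le_zero (a b : ℝ) (ha0 : 0 ≤ a) (ha1 : a ≤ 1) (hb0 : 0 ≤ b) (hb1 : b ≤ 1) :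
    psi a b ^ 2 ≤ 18 * (a ^ 2 + b ^ 2) := by
  have h0 : 0 ≤ psi a b := by
    unfold psi
    nlinarith [mul_nonneg ha0 (sub_nonneg.2 ha1), mul_nonneg hb0 (sub_nonneg.2 hb1),
      mul_nonneg ha0 (sub_nonneg.2 hb1), mul_nonneg hb0 (sub_nonneg.2 ha1)]
  have h1 : psi a b ≤ 3 * (a + b) := by
    unfold psi
    nlinarith [mul_nonneg ha0 hb0, sq_nonneg a, sq_nonneg b]
  have h2 : psi a b ^ 2 ≤ (3 * (a + b)) ^ 2 := by
    apply pow_le_pow_left₀ h0 h1
  nlinarith [sq_nonneg (a - b)]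

lemma psi_sq_le (a b e : ℝ) (ha0 : 0 ≤ a) (ha1 : a ≤ 1) (hb0 : 0 ≤ b) (hb1 : b ≤ 1)
    (he : e = 0 ∨ e = 1) : psi a b ^ 2 ≤ 18 * ((a - e) ^ 2 + (b - e) ^ 2) := by
  rcases he with rfl | rfl
  · simpa using psi_sq_le_zero a b ha0 ha1 hb0 hb1
  · have h := psi_sq_le_zero (1 - a) (1 - b) (by linarith) (by linarith) (by linarith) (by linarith)
    have h2 : psi (1 - a) (1 - b) = psi a b := by unfold psi; ring
    rw [h2] at h
    nlinarith [h]

lemma phi_nonneg_of (u : ℝ) (h0 : 0 ≤ u) (h1 : u ≤ 1) : 0 ≤ phi u := by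
  unfold phi
  have : 3 * u ^ 2 - 2 * u ^ 3 = u ^ 2 * (3 - 2 * u) := by ring
  rw [this]
  exact mul_nonneg (sq_nonneg u) (by linarith)

lemma phi_le (u : ℝ) (h0 : 0 ≤ u) : phi u ≤ 9 / 8 * u := by
  unfold phi
  have : 9 / 8 * u - (3 * u ^ 2 - 2 * u ^ 3) = 2 * u * (u - 3 / 4) ^ 2 := by ring
  nlinarith [mul_nonneg (mul_nonneg (by norm_num : (0 : ℝ) ≤ 2) h0) (sq_nonneg (u - 3 / 4))]

lemma one_sub_phi (u : ℝ) : 1 - phi u = phi (1 - u) := by
  unfold phi; ring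

/-! ## A weighted inner product on functions on the cut space -/

section IP

variable {Ω : Type*} [Fintype Ω] (μ : Ω → ℝ)

/-- Weighted squared norm. -/
def nsq (p : Ω → ℝ) : ℝ := ∑ ω, μ ω * p ω ^ 2

/-- Weighted inner product. -/
def ip (p q : Ω → ℝ) : ℝ := ∑ ω, μ ω * (p ω * q ω)

variable {μ}

lemma nsq_nonneg (hμ : ∀ ω, 0 ≤ μ ω) (p : Ω → ℝ) : 0 ≤ nsq μ p :=
  Finset.sum_nonneg fun ω _ => mul_nonneg (hμ ω) (sq_nonneg _)

lemma ip_sq_le (hμ : ∀ ω, 0 ≤ μ ω) (p q : Ω → ℝ) : ip μ p q ^ 2 ≤ nsq μ p * nsq μ q := by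
  have h := Finset.sum_mul_sq_le_sq_mul_sq Finset.univ
    (fun ω => Real.sqrt (μ ω) * p ω) (fun ω => Real.sqrt (μ ω) * q ω)
  have e1 : ∀ ω, (Real.sqrt (μ ω) * p ω) * (Real.sqrt (μ ω) * q ω) = μ ω * (p ω * q ω) := by
    intro ω
    have := Real.mul_self_sqrt (hμ ω)
    calc (Real.sqrt (μ ω) * p ω) * (Real.sqrt (μ ω) * q ω)
        = (Real.sqrt (μ ω) * Real.sqrt (μ ω)) * (p ω * q ω) := by ring
      _ = μ ω * (p ω * q ω) := by rw [this]
  have e2 : ∀ (r : Ω → ℝ) (ω : Ω), (Real.sqrt (μ ω) * r ω) ^ 2 = μ ω * r ω ^ 2 := by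
    intro r ω
    rw [mul_pow, Real.sq_sqrt (hμ ω)]
  simp only [e1] at h
  simp only [e2] at h
  exact h

lemma nsq_add (p q : Ω → ℝ) :
    nsq μ (fun ω => p ω + q ω) = nsq μ p + 2 * ip μ p q + nsq μ q := by
  unfold nsq ip
  rw [Finset.mul_sum, ← Finset.sum_add_distrib, ← Finset.sum_add_distrib]
  exact Finset.sum_congr rfl fun ω _ => by ring

lemma abs_ip_le (hμ : ∀ ω, 0 ≤ μ ω) (p q : Ω → ℝ) : |ip μ p q| ≤ (nsq μ p + nsq μ q) / 2 := by
  rw [abs_le]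
  unfold ip nsq
  rw [← Finset.sum_add_distrib, Finset.sum_div, ← Finset.sum_neg_distrib]
  constructor
  · apply Finset.sum_le_sum
    intro ω _
    nlinarith [mul_nonneg (hμ ω) (sq_nonneg (p ω + q ω))]
  · apply Finset.sum_le_sum
    intro ω _
    nlinarith [mul_nonneg (hμ ω) (sq_nonneg (p ω - q ω))]

lemma ip_sum_right {ι : Type*} [Fintype ι] (p : Ω → ℝ) (P : ι → ℝ) (v : ι → Ω → ℝ) :
    ∑ j, P j * ip μ p (v j) = ip μ p (fun ω => ∑ j, P j * v j ω) := by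
  unfold ip
  simp only [Finset.mul_sum]
  rw [Finset.sum_comm]
  refine Finset.sum_congr rfl fun ω _ => Finset.sum_congr rfl fun j _ => by ring

end IP

/-! ## Jensen -/

lemma jensen_sq {ι : Type*} [Fintype ι] (P : ι → ℝ) (hP : ∀ l, 0 ≤ P l) (hP1 : ∑ l, P l = 1)
    (r : ι → ℝ) : (∑ l, P l * r l) ^ 2 ≤ ∑ l, P l * r l ^ 2 := by
  have h := Finset.sum_mul_sq_le_sq_mul_sq Finset.univ
    (fun l => Real.sqrt (P l)) (fun l => Real.sqrt (P l) * r l)
  have e1 : ∀ l, Real.sqrt (P l) * (Real.sqrt (P l) * r l) = P l * r l := by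
    intro l
    rw [← mul_assoc, Real.mul_self_sqrt (hP l)]
  have e2 : ∀ l, Real.sqrt (P l) ^ 2 = P l := fun l => Real.sq_sqrt (hP l)
  have e3 : ∀ l, (Real.sqrt (P l) * r l) ^ 2 = P l * r l ^ 2 := by
    intro l
    rw [mul_pow, e2]
  simp only [e1, e2, e3, hP1, one_mul] at h
  exact h

lemma nsq_jensen {Ω ι : Type*} [Fintype Ω] [Fintype ι] {μ : Ω → ℝ} (hμ : ∀ ω, 0 ≤ μ ω)
    (P : ι → ℝ) (hP : ∀ l, 0 ≤ P l) (hP1 : ∑ l, P l = 1) (v : ι → Ω → ℝ) :
    nsq μ (fun ω => ∑ l, P l * v l ω) ≤ ∑ l, P l * nsq μ (v l) := by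
  unfold nsq
  simp only [Finset.mul_sum]
  rw [Finset.sum_comm]
  apply Finset.sum_le_sum
  intro ω _
  have := jensen_sq P hP hP1 (fun l => v l ω)
  calc μ ω * (∑ l, P l * v l ω) ^ 2 ≤ μ ω * ∑ l, P l * v l ω ^ 2 :=
        mul_le_mul_of_nonneg_left this (hμ ω)
    _ = ∑ l, P l * (μ ω * v l ω ^ 2) := by
        rw [Finset.mul_sum]
        exact Finset.sum_congr rfl fun l _ => by ring

/-- Jensen twice: the square of a `P`-average of nonnegative numbers. -/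
lemma sq_avg_le {ι : Type*} [Fintype ι] (P : ι → ℝ) (hP : ∀ l, 0 ≤ P l) (hP1 : ∑ l, P l = 1)
    (r : ι → ℝ) (x : ℝ) (hx0 : 0 ≤ x) (hx : x ≤ ∑ l, P l * r l) :
    x ^ 2 ≤ ∑ l, P l * r l ^ 2 :=
  (pow_le_pow_left₀ hx0 hx 2).trans (jensen_sq P hP hP1 r)


/-! ## Stochastic matrices -/

section Chain

variable {ι : Type*} [Fintype ι] [DecidableEq ι]

/-- Entrywise stochastic. -/
def IsStoch (P : Matrix ι ι ℝ) : Prop := (∀ i j, 0 ≤ P i j) ∧ ∀ i, ∑ j, P i j = 1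

lemma pow_succ_apply (A : Matrix ι ι ℝ) (k : ℕ) (c j : ι) :
    (A ^ (k + 1)) c j = ∑ i, (A ^ k) c i * A i j := by
  rw [pow_succ, Matrix.mul_apply]

lemma IsStoch.pow {A : Matrix ι ι ℝ} (h : IsStoch A) (s : ℕ) : IsStoch (A ^ s) := by
  induction s with
  | zero =>
    refine ⟨fun i j => ?_, fun i => ?_⟩
    · simp only [pow_zero, Matrix.one_apply]
      split_ifs <;> norm_num
    · simp [pow_zero, Matrix.one_apply]
  | succ s ih =>
    refine ⟨fun i j => ?_, fun i => ?_⟩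
    · rw [pow_succ_apply]
      exact Finset.sum_nonneg fun k _ => mul_nonneg (ih.1 i k) (h.1 k j)
    · simp only [pow_succ_apply]
      rw [Finset.sum_comm]
      simp only [← Finset.mul_sum, h.2, mul_one]
      exact ih.2 i

lemma stationary_pow {A : Matrix ι ι ℝ} {w : ι → ℝ} (hst : ∀ i, ∑ c, w c * A c i = w i)
    (s : ℕ) (i : ι) : ∑ c, w c * (A ^ s) c i = w i := by
  induction s generalizing i with
  | zero => simp [pow_zero, Matrix.one_apply]
  | succ s ih =>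
    simp only [pow_succ_apply, Finset.mul_sum]
    rw [Finset.sum_comm]
    rw [← hst i]
    refine Finset.sum_congr rfl fun j _ => ?_
    rw [← ih j, Finset.sum_mul]
    exact Finset.sum_congr rfl fun c _ => by ring

/-- The time average `(1/m) ∑_{s=1}^m A^s`. -/
noncomputable def avgPow (A : Matrix ι ι ℝ) (m : ℕ) : Matrix ι ι ℝ :=
  (1 / (m : ℝ)) • ∑ s ∈ Finset.range m, A ^ (s + 1)

lemma avgPow_apply (A : Matrix ι ι ℝ) (m : ℕ) (i j : ι) :
    avgPow A m i j = (1 / (m : ℝ)) * ∑ s ∈ Finset.range m, (A ^ (s + 1)) i j := by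
  simp [avgPow, Matrix.smul_apply, Matrix.sum_apply]

lemma IsStoch.avgPow {A : Matrix ι ι ℝ} (h : IsStoch A) {m : ℕ} (hm : 1 ≤ m) :
    IsStoch (avgPow A m) := by
  have hm' : (0 : ℝ) < m := by exact_mod_cast hm
  refine ⟨fun i j => ?_, fun i => ?_⟩
  · rw [avgPow_apply]
    exact mul_nonneg (by positivity) (Finset.sum_nonneg fun s _ => (h.pow (s + 1)).1 i j)
  · simp only [avgPow_apply]
    rw [← Finset.mul_sum, Finset.sum_comm]
    simp only [(h.pow _).2]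
    simp
    field_simp

lemma mul_avgPow_sub (A : Matrix ι ι ℝ) (m : ℕ) :
    A * avgPow A m - avgPow A m = (1 / (m : ℝ)) • (A ^ (m + 1) - A) := by
  have h1 : ∑ s ∈ Finset.range m, (A ^ (s + 1 + 1) - A ^ (s + 1)) = A ^ (m + 1) - A ^ (0 + 1) :=
    Finset.sum_range_sub (fun s => A ^ (s + 1)) m
  simp only [zero_add, pow_one] at h1
  rw [← h1, avgPow, Matrix.mul_smul, Finset.mul_sum, ← smul_sub, ← Finset.sum_sub_distrib]
  congr 1
  refine Finset.sum_congr rfl fun s _ => ?_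
  rw [pow_succ' A (s + 1)]

/-! ## Cut-space quantities -/

variable {Ω : Type*} [Fintype Ω] (μ : Ω → ℝ) (a : Ω → ι → ℝ)

/-- `(P a_ω)(i)`. -/
def uu (P : Matrix ι ι ℝ) (ω : Ω) (i : ι) : ℝ := ∑ l, P i l * a ω l

/-- `‖P f (i) - f (c)‖²`. -/
def GG (P : Matrix ι ι ℝ) (c i : ι) : ℝ := nsq μ (fun ω => uu a P ω i - a ω c)

/-- `‖P f (j) - P f (i)‖²`. -/
def DD (P : Matrix ι ι ℝ) (i j : ι) : ℝ := nsq μ (fun ω => uu a P ω j - uu a P ω i)

/-- The `L¹` distance between the smoothed points. -/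
def YY (P : Matrix ι ι ℝ) (i j : ι) : ℝ := ∑ ω, μ ω * |phi (uu a P ω i) - phi (uu a P ω j)|

/-- The `L¹` distance between a point and its smoothing. -/
def ZZ (P : Matrix ι ι ℝ) (i : ι) : ℝ := ∑ ω, μ ω * |a ω i - phi (uu a P ω i)|

/-- The cut distance. -/
def dd (c l : ι) : ℝ := nsq μ (fun ω => a ω l - a ω c)

/-- The energy at time `s`. -/
noncomputable def En (w : ι → ℝ) (A : Matrix ι ι ℝ) (s : ℕ) : ℝ :=
  ∑ c, ∑ l, w c * (A ^ s) c l * dd μ a c l ^ 2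

variable {μ a}

lemma uu_sub_eq {P : Matrix ι ι ℝ} (hP : IsStoch P) (ω : Ω) (i c : ι) :
    uu a P ω i - a ω c = ∑ l, P i l * (a ω l - a ω c) := by
  unfold uu
  simp only [mul_sub, Finset.sum_sub_distrib]
  rw [← Finset.sum_mul, hP.2, one_mul]

lemma uu_nonneg (ha : ∀ ω l, a ω l = 0 ∨ a ω l = 1) {P : Matrix ι ι ℝ} (hP : IsStoch P)
    (ω : Ω) (i : ι) : 0 ≤ uu a P ω i := by
  refine Finset.sum_nonneg fun l _ => mul_nonneg (hP.1 i l) ?_
  rcases ha ω l with h | h <;> rw [h] <;> norm_num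

lemma uu_le_one (ha : ∀ ω l, a ω l = 0 ∨ a ω l = 1) {P : Matrix ι ι ℝ} (hP : IsStoch P)
    (ω : Ω) (i : ι) : uu a P ω i ≤ 1 := by
  have : uu a P ω i ≤ ∑ l, P i l := by
    refine Finset.sum_le_sum fun l _ => ?_
    rcases ha ω l with h | h <;> rw [h] <;> nlinarith [hP.1 i l]
  rwa [hP.2] at this

lemma GG_nonneg (hμ : ∀ ω, 0 ≤ μ ω) (P : Matrix ι ι ℝ) (c i : ι) : 0 ≤ GG μ a P c i :=
  nsq_nonneg hμ _

lemma DD_nonneg (hμ : ∀ ω, 0 ≤ μ ω) (P : Matrix ι ι ℝ) (i j : ι) : 0 ≤ DD μ a P i j :=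
  nsq_nonneg hμ _

lemma dd_nonneg (hμ : ∀ ω, 0 ≤ μ ω) (c l : ι) : 0 ≤ dd μ a c l :=
  nsq_nonneg hμ _

lemma GG_le (hμ : ∀ ω, 0 ≤ μ ω) {P : Matrix ι ι ℝ} (hP : IsStoch P) (c i : ι) :
    GG μ a P c i ≤ ∑ l, P i l * dd μ a c l := by
  unfold GG dd
  simp only [uu_sub_eq hP]
  exact nsq_jensen hμ (P i) (hP.1 i) (hP.2 i) (fun l ω => a ω l - a ω c)

lemma GG_sq_le (hμ : ∀ ω, 0 ≤ μ ω) {P : Matrix ι ι ℝ} (hP : IsStoch P) (c i : ι) :
    GG μ a P c i ^ 2 ≤ ∑ l, P i l * dd μ a c l ^ 2 :=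
  sq_avg_le (P i) (hP.1 i) (hP.2 i) _ _ (GG_nonneg hμ P c i) (GG_le hμ hP c i)

/-- The basic `L¹`–Hilbert comparison for the smoothed points. -/
lemma YY_sq_le (hμ : ∀ ω, 0 ≤ μ ω) (ha : ∀ ω l, a ω l = 0 ∨ a ω l = 1) {P : Matrix ι ι ℝ}
    (hP : IsStoch P) (c i j : ι) :
    YY μ a P i j ^ 2 ≤ 18 * DD μ a P i j * (GG μ a P c i + GG μ a P c j) := by
  have e : YY μ a P i j = ip μ (fun ω => |uu a P ω i - uu a P ω j|)
      (fun ω => |psi (uu a P ω i) (uu a P ω j)|) := by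
    unfold YY ip
    refine Finset.sum_congr rfl fun ω _ => ?_
    rw [phi_sub, abs_mul]
  rw [e]
  have h1 := ip_sq_le hμ (fun ω => |uu a P ω i - uu a P ω j|)
      (fun ω => |psi (uu a P ω i) (uu a P ω j)|)
  have h2 : nsq μ (fun ω => |uu a P ω i - uu a P ω j|) = DD μ a P i j := by
    unfold nsq DD nsq
    refine Finset.sum_congr rfl fun ω _ => ?_
    rw [sq_abs]
    ring
  have h3 : nsq μ (fun ω => |psi (uu a P ω i) (uu a P ω j)|) ≤
      18 * (GG μ a P c i + GG μ a P c j) := by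
    unfold nsq GG nsq
    rw [← Finset.sum_add_distrib, Finset.mul_sum]
    refine Finset.sum_le_sum fun ω _ => ?_
    rw [sq_abs]
    have := psi_sq_le (uu a P ω i) (uu a P ω j) (a ω c) (uu_nonneg ha hP ω i)
      (uu_le_one ha hP ω i) (uu_nonneg ha hP ω j) (uu_le_one ha hP ω j) (ha ω c)
    nlinarith [mul_le_mul_of_nonneg_left this (hμ ω)]
  rw [h2] at h1
  calc _ ≤ DD μ a P i j * nsq μ (fun ω => |psi (uu a P ω i) (uu a P ω j)|) := h1
    _ ≤ DD μ a P i j * (18 * (GG μ a P c i + GG μ a P c j)) :=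
        mul_le_mul_of_nonneg_left h3 (DD_nonneg hμ P i j)
    _ = _ := by ring

/-- `G_j = G_i + 2 v + D`. -/
lemma GG_expand (P : Matrix ι ι ℝ) (c i j : ι) :
    GG μ a P c j = GG μ a P c i +
      2 * ip μ (fun ω => uu a P ω i - a ω c) (fun ω => uu a P ω j - uu a P ω i) +
      DD μ a P i j := by
  unfold GG DD
  rw [← nsq_add]
  congr 1
  funext ω
  ring

/-- The pointwise algebra. -/
lemma DD_mul_le (hμ : ∀ ω, 0 ≤ μ ω) (P : Matrix ι ι ℝ) (c i j : ι) :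
    DD μ a P i j * (GG μ a P c i + GG μ a P c j) ≤
      7 / 4 * (2 * GG μ a P c i * DD μ a P i j + (GG μ a P c j - GG μ a P c i) ^ 2) := by
  have h := GG_expand (μ := μ) (a := a) P c i j
  set v := ip μ (fun ω => uu a P ω i - a ω c) (fun ω => uu a P ω j - uu a P ω i) with hv
  have hvsq : v ^ 2 ≤ GG μ a P c i * DD μ a P i j := ip_sq_le hμ _ _
  have hg := GG_nonneg (a := a) hμ P c i
  have hd := DD_nonneg (a := a) hμ P i j
  set g := GG μ a P c i
  set δ := DD μ a P i j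
  rw [h]
  set X := g + 2 * v + δ - g with hX
  have hδ : δ = X - 2 * v := by rw [hX]; ring
  have hgδ : 0 ≤ g * δ := mul_nonneg hg hd
  nlinarith [sq_nonneg (3 * X + 4 * v)]

/-- One-step identity. -/
lemma step_identity {A : Matrix ι ι ℝ} (hA1 : ∀ i, ∑ j, A i j = 1) (P : Matrix ι ι ℝ) (c i : ι) :
    ∑ j, A i j * (2 * GG μ a P c i * DD μ a P i j + (GG μ a P c j - GG μ a P c i) ^ 2) =
      ∑ j, A i j * GG μ a P c j ^ 2 - GG μ a P c i ^ 2 -
        4 * GG μ a P c i * ip μ (fun ω => uu a P ω i - a ω c)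
          (fun ω => ∑ j, A i j * (uu a P ω j - uu a P ω i)) := by
  rw [← ip_sum_right, Finset.mul_sum]
  have h1 : GG μ a P c i ^ 2 = ∑ j, A i j * GG μ a P c i ^ 2 := by
    rw [← Finset.sum_mul, hA1, one_mul]
  rw [h1, ← Finset.sum_sub_distrib, ← Finset.sum_sub_distrib]
  refine Finset.sum_congr rfl fun j _ => ?_
  have h := GG_expand (μ := μ) (a := a) P c i j
  rw [h]
  ring


lemma uu_mul (A B : Matrix ι ι ℝ) (ω : Ω) (i : ι) :
    ∑ j, A i j * uu a B ω j = uu a (A * B) ω i := by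
  unfold uu
  simp only [Matrix.mul_apply, Finset.mul_sum, Finset.sum_mul]
  rw [Finset.sum_comm]
  refine Finset.sum_congr rfl fun l _ => Finset.sum_congr rfl fun j _ => by ring

lemma uu_sub (P Q : Matrix ι ι ℝ) (ω : Ω) (i : ι) :
    uu a (P - Q) ω i = uu a P ω i - uu a Q ω i := by
  unfold uu
  simp only [Matrix.sub_apply, sub_mul, Finset.sum_sub_distrib]

lemma uu_smul (r : ℝ) (P : Matrix ι ι ℝ) (ω : Ω) (i : ι) :
    uu a (r • P) ω i = r * uu a P ω i := by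
  unfold uu
  simp only [Matrix.smul_apply, smul_eq_mul, Finset.mul_sum]
  exact Finset.sum_congr rfl fun l _ => by ring

/-- The drift of the smoothed function. -/
lemma drift_vec {A : Matrix ι ι ℝ} (hA1 : ∀ i, ∑ j, A i j = 1) (m : ℕ) (ω : Ω) (c i : ι) :
    ∑ j, A i j * (uu a (avgPow A m) ω j - uu a (avgPow A m) ω i) =
      (1 / (m : ℝ)) * ((uu a (A ^ (m + 1)) ω i - a ω c) - (uu a A ω i - a ω c)) := by
  simp only [mul_sub, Finset.sum_sub_distrib]
  rw [← Finset.sum_mul, hA1, one_mul, uu_mul, ← uu_sub, mul_avgPow_sub, uu_smul, uu_sub]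
  ring

lemma drift_bound (hμ : ∀ ω, 0 ≤ μ ω) {m : ℝ} (hm : 0 < m) (W p q : Ω → ℝ) :
    -(4 * nsq μ W * ip μ W (fun ω => (1 / m) * (p ω - q ω))) ≤
      (4 / m) * (3 / 2 * nsq μ W ^ 2 + 1 / 4 * nsq μ p ^ 2 + 1 / 4 * nsq μ q ^ 2) := by
  have e : ip μ W (fun ω => (1 / m) * (p ω - q ω)) = (1 / m) * (ip μ W p - ip μ W q) := by
    unfold ip
    rw [← Finset.sum_sub_distrib, Finset.mul_sum]
    exact Finset.sum_congr rfl fun ω _ => by ring
  rw [e]
  have h1 := abs_ip_le hμ W p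
  have h2 := abs_ip_le hμ W q
  have hG := nsq_nonneg hμ W
  have hP := nsq_nonneg hμ p
  have hQ := nsq_nonneg hμ q
  set G := nsq μ W
  set P := nsq μ p
  set Q := nsq μ q
  set x := ip μ W p
  set y := ip μ W q
  have hx := abs_le.1 h1
  have hy := abs_le.1 h2
  have key : -(G * (x - y)) ≤ 3 / 2 * G ^ 2 + 1 / 4 * P ^ 2 + 1 / 4 * Q ^ 2 := by
    have h3 : G * (-x) ≤ G * ((G + P) / 2) := mul_le_mul_of_nonneg_left (by linarith [hx.1]) hG
    have h4 : G * y ≤ G * ((G + Q) / 2) := mul_le_mul_of_nonneg_left (by linarith [hy.2]) hG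
    nlinarith [sq_nonneg (G - P), sq_nonneg (G - Q)]
  have hm' : 0 < 4 / m := by positivity
  have := mul_le_mul_of_nonneg_left key hm'.le
  calc _ = 4 / m * -(G * (x - y)) := by field_simp
    _ ≤ _ := this

/-- The bound at a pair `(c, i)`. -/
lemma local_bound {A : Matrix ι ι ℝ} (hμ : ∀ ω, 0 ≤ μ ω) (ha : ∀ ω l, a ω l = 0 ∨ a ω l = 1)
    (hA : IsStoch A) {m : ℕ} (hm : 1 ≤ m) (c i : ι) :
    ∑ j, A i j * YY μ a (avgPow A m) i j ^ 2 ≤
      63 / 2 * (∑ j, A i j * GG μ a (avgPow A m) c j ^ 2 - GG μ a (avgPow A m) c i ^ 2 +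
        (4 / (m : ℝ)) * (3 / 2 * GG μ a (avgPow A m) c i ^ 2 +
          1 / 4 * GG μ a (A ^ (m + 1)) c i ^ 2 + 1 / 4 * GG μ a A c i ^ 2)) := by
  have hB := hA.avgPow hm
  have hm' : (0 : ℝ) < m := by exact_mod_cast hm
  have h1 : ∑ j, A i j * YY μ a (avgPow A m) i j ^ 2 ≤
      ∑ j, A i j * (63 / 2 * (2 * GG μ a (avgPow A m) c i * DD μ a (avgPow A m) i j +
        (GG μ a (avgPow A m) c j - GG μ a (avgPow A m) c i) ^ 2)) := by
    refine Finset.sum_le_sum fun j _ => mul_le_mul_of_nonneg_left ?_ (hA.1 i j)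
    have h2 := YY_sq_le hμ ha hB c i j
    have h3 := DD_mul_le (a := a) hμ (avgPow A m) c i j
    nlinarith
  have h4 : ∑ j, A i j * (63 / 2 * (2 * GG μ a (avgPow A m) c i * DD μ a (avgPow A m) i j +
        (GG μ a (avgPow A m) c j - GG μ a (avgPow A m) c i) ^ 2)) =
      63 / 2 * ∑ j, A i j * (2 * GG μ a (avgPow A m) c i * DD μ a (avgPow A m) i j +
        (GG μ a (avgPow A m) c j - GG μ a (avgPow A m) c i) ^ 2) := by
    rw [Finset.mul_sum]
    exact Finset.sum_congr rfl fun j _ => by ring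
  rw [h4, step_identity hA.2] at h1
  have e : (fun ω => ∑ j, A i j * (uu a (avgPow A m) ω j - uu a (avgPow A m) ω i)) =
      fun ω => (1 / (m : ℝ)) * ((uu a (A ^ (m + 1)) ω i - a ω c) - (uu a A ω i - a ω c)) := by
    funext ω
    exact drift_vec hA.2 m ω c i
  rw [e] at h1
  have h5 := drift_bound hμ hm' (fun ω => uu a (avgPow A m) ω i - a ω c)
    (fun ω => uu a (A ^ (m + 1)) ω i - a ω c) (fun ω => uu a A ω i - a ω c)
  have e1 : nsq μ (fun ω => uu a (avgPow A m) ω i - a ω c) = GG μ a (avgPow A m) c i := rfl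
  have e2 : nsq μ (fun ω => uu a (A ^ (m + 1)) ω i - a ω c) = GG μ a (A ^ (m + 1)) c i := rfl
  have e3 : nsq μ (fun ω => uu a A ω i - a ω c) = GG μ a A c i := rfl
  rw [e1, e2, e3] at h5
  have h6 : GG μ a (avgPow A m) c i = nsq μ (fun ω => uu a (avgPow A m) ω i - a ω c) := rfl
  linarith

/-! ## Summation along the chain -/

/-- Sum against the law of `(X_0, X_k)`. -/
noncomputable def Wsum (w : ι → ℝ) (A : Matrix ι ι ℝ) (k : ℕ) (F : ι → ι → ℝ) : ℝ :=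
  ∑ c, ∑ i, w c * (A ^ k) c i * F c i

lemma Wsum_le {w : ι → ℝ} {A : Matrix ι ι ℝ} (hw : ∀ i, 0 ≤ w i) (hA : IsStoch A) (k : ℕ)
    {F F' : ι → ι → ℝ} (h : ∀ c i, F c i ≤ F' c i) : Wsum w A k F ≤ Wsum w A k F' :=
  Finset.sum_le_sum fun c _ => Finset.sum_le_sum fun i _ =>
    mul_le_mul_of_nonneg_left (h c i) (mul_nonneg (hw c) ((hA.pow k).1 c i))

lemma Wsum_nonneg {w : ι → ℝ} {A : Matrix ι ι ℝ} (hw : ∀ i, 0 ≤ w i) (hA : IsStoch A) (k : ℕ)
    {F : ι → ι → ℝ} (h : ∀ c i, 0 ≤ F c i) : 0 ≤ Wsum w A k F :=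
  Finset.sum_nonneg fun c _ => Finset.sum_nonneg fun i _ =>
    mul_nonneg (mul_nonneg (hw c) ((hA.pow k).1 c i)) (h c i)

lemma Wsum_const {w : ι → ℝ} {A : Matrix ι ι ℝ} (hst : ∀ i, ∑ c, w c * A c i = w i) (k : ℕ)
    (X : ι → ℝ) : Wsum w A k (fun _ i => X i) = ∑ i, w i * X i := by
  unfold Wsum
  rw [Finset.sum_comm]
  refine Finset.sum_congr rfl fun i _ => ?_
  rw [← Finset.sum_mul, stationary_pow hst]

lemma Wsum_step (w : ι → ℝ) (A : Matrix ι ι ℝ) (k : ℕ) (F : ι → ι → ℝ) :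
    Wsum w A k (fun c i => ∑ j, A i j * F c j) = Wsum w A (k + 1) F := by
  unfold Wsum
  refine Finset.sum_congr rfl fun c _ => ?_
  simp only [pow_succ_apply, Finset.mul_sum, Finset.sum_mul]
  rw [Finset.sum_comm]
  refine Finset.sum_congr rfl fun j _ => Finset.sum_congr rfl fun i _ => by ring

lemma Wsum_mul_avg (w : ι → ℝ) (A P : Matrix ι ι ℝ) (k : ℕ) (F : ι → ι → ℝ) :
    Wsum w A k (fun c i => ∑ l, P i l * F c l) = ∑ c, ∑ l, w c * (A ^ k * P) c l * F c l := by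
  unfold Wsum
  refine Finset.sum_congr rfl fun c _ => ?_
  simp only [Matrix.mul_apply, Finset.mul_sum, Finset.sum_mul]
  rw [Finset.sum_comm]
  refine Finset.sum_congr rfl fun j _ => Finset.sum_congr rfl fun i _ => by ring

lemma Wsum_pow (w : ι → ℝ) (A : Matrix ι ι ℝ) (k s : ℕ) :
    Wsum w A k (fun c i => ∑ l, (A ^ s) i l * dd μ a c l ^ 2) = En μ a w A (k + s) := by
  rw [Wsum_mul_avg, ← pow_add]
  rfl

lemma Wsum_add (w : ι → ℝ) (A : Matrix ι ι ℝ) (k : ℕ) (F F' : ι → ι → ℝ) :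
    Wsum w A k (fun c i => F c i + F' c i) = Wsum w A k F + Wsum w A k F' := by
  unfold Wsum
  simp only [mul_add, Finset.sum_add_distrib]

lemma Wsum_sub (w : ι → ℝ) (A : Matrix ι ι ℝ) (k : ℕ) (F F' : ι → ι → ℝ) :
    Wsum w A k (fun c i => F c i - F' c i) = Wsum w A k F - Wsum w A k F' := by
  unfold Wsum
  simp only [mul_sub, Finset.sum_sub_distrib]

lemma Wsum_mul (w : ι → ℝ) (A : Matrix ι ι ℝ) (k : ℕ) (r : ℝ) (F : ι → ι → ℝ) :
    Wsum w A k (fun c i => r * F c i) = r * Wsum w A k F := by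
  unfold Wsum
  simp only [Finset.mul_sum]
  exact Finset.sum_congr rfl fun c _ => Finset.sum_congr rfl fun i _ => by ring

lemma Wsum_sum {α : Type*} (S : Finset α) (w : ι → ℝ) (A : Matrix ι ι ℝ) (k : ℕ)
    (F : α → ι → ι → ℝ) :
    Wsum w A k (fun c i => ∑ s ∈ S, F s c i) = ∑ s ∈ S, Wsum w A k (F s) := by
  unfold Wsum
  simp only [Finset.mul_sum]
  calc _ = ∑ c, ∑ s ∈ S, ∑ i, w c * (A ^ k) c i * F s c i :=
        Finset.sum_congr rfl fun c _ => Finset.sum_comm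
    _ = _ := Finset.sum_comm

lemma avgPow_sum (A : Matrix ι ι ℝ) (m : ℕ) (i : ι) (F : ι → ℝ) :
    ∑ l, avgPow A m i l * F l =
      (1 / (m : ℝ)) * ∑ s ∈ Finset.range m, ∑ l, (A ^ (s + 1)) i l * F l := by
  simp only [avgPow_apply, mul_assoc, ← Finset.mul_sum, Finset.sum_mul]
  rw [Finset.sum_comm]

lemma Wsum_avg (w : ι → ℝ) (A : Matrix ι ι ℝ) (k m : ℕ) :
    Wsum w A k (fun c i => ∑ l, avgPow A m i l * dd μ a c l ^ 2) =
      (1 / (m : ℝ)) * ∑ s ∈ Finset.range m, En μ a w A (k + (s + 1)) := by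
  simp only [avgPow_sum]
  rw [Wsum_mul, Wsum_sum]
  simp only [Wsum_pow]


lemma En_nonneg {w : ι → ℝ} {A : Matrix ι ι ℝ} (hw : ∀ i, 0 ≤ w i) (hA : IsStoch A) (s : ℕ) :
    0 ≤ En μ a w A s :=
  Finset.sum_nonneg fun c _ => Finset.sum_nonneg fun l _ =>
    mul_nonneg (mul_nonneg (hw c) ((hA.pow s).1 c l)) (sq_nonneg _)

lemma sum_shift_le (E : ℕ → ℝ) (hE : ∀ s, 0 ≤ E s) {k m t : ℕ} (h : k + m ≤ t) :
    ∑ s ∈ Finset.range m, E (k + (s + 1)) ≤ ∑ r ∈ Finset.range t, E (r + 1) := by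
  have h1 : ∑ s ∈ Finset.range m, E (k + (s + 1)) = ∑ r ∈ Finset.Ico k (k + m), E (r + 1) := by
    rw [Finset.sum_Ico_eq_sum_range]
    simp only [add_tsub_cancel_left]
    exact Finset.sum_congr rfl fun s _ => by rw [add_assoc]
  rw [h1]
  apply Finset.sum_le_sum_of_subset_of_nonneg
  · intro r hr
    simp only [Finset.mem_Ico, Finset.mem_range] at hr ⊢
    omega
  · intro r _ _
    exact hE _

/-- The per-time inequality. -/
lemma per_time {w : ι → ℝ} {A : Matrix ι ι ℝ} (hw : ∀ i, 0 ≤ w i) (hA : IsStoch A)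
    (hst : ∀ i, ∑ c, w c * A c i = w i) (hμ : ∀ ω, 0 ≤ μ ω)
    (ha : ∀ ω l, a ω l = 0 ∨ a ω l = 1) {m : ℕ} (hm : 1 ≤ m) (k : ℕ) :
    ∑ i, w i * ∑ j, A i j * YY μ a (avgPow A m) i j ^ 2 ≤
      63 / 2 * (Wsum w A (k + 1) (fun c i => GG μ a (avgPow A m) c i ^ 2) -
        Wsum w A k (fun c i => GG μ a (avgPow A m) c i ^ 2) +
        (4 / (m : ℝ)) * (3 / 2 * Wsum w A k (fun c i => GG μ a (avgPow A m) c i ^ 2) +
          1 / 4 * En μ a w A (k + (m + 1)) + 1 / 4 * En μ a w A (k + 1))) := by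
  have hm' : (0 : ℝ) < m := by exact_mod_cast hm
  rw [← Wsum_const hst k (fun i => ∑ j, A i j * YY μ a (avgPow A m) i j ^ 2)]
  have h1 := Wsum_le (F := fun _ i => ∑ j, A i j * YY μ a (avgPow A m) i j ^ 2)
    (F' := fun c i => 63 / 2 * ((∑ j, A i j * GG μ a (avgPow A m) c j ^ 2 -
        GG μ a (avgPow A m) c i ^ 2) +
        (4 / (m : ℝ)) * (3 / 2 * GG μ a (avgPow A m) c i ^ 2 +
          1 / 4 * GG μ a (A ^ (m + 1)) c i ^ 2 + 1 / 4 * GG μ a A c i ^ 2))) hw hA k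
    (fun c i => local_bound hμ ha hA hm c i)
  refine h1.trans ?_
  rw [Wsum_mul, Wsum_add, Wsum_sub, Wsum_mul, Wsum_add, Wsum_add, Wsum_mul, Wsum_mul, Wsum_mul]
  rw [Wsum_step w A k (fun c j => GG μ a (avgPow A m) c j ^ 2)]
  have hP : Wsum w A k (fun c i => GG μ a (A ^ (m + 1)) c i ^ 2) ≤ En μ a w A (k + (m + 1)) := by
    rw [← Wsum_pow]
    exact Wsum_le hw hA k fun c i => GG_sq_le hμ (hA.pow (m + 1)) c i
  have hQ : Wsum w A k (fun c i => GG μ a A c i ^ 2) ≤ En μ a w A (k + 1) := by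
    rw [← Wsum_pow]
    simp only [pow_one]
    exact Wsum_le hw hA k fun c i => GG_sq_le hμ hA c i
  have hc : 0 < 4 / (m : ℝ) := by positivity
  have := mul_le_mul_of_nonneg_left
    (add_le_add (mul_le_mul_of_nonneg_left hP (by norm_num : (0 : ℝ) ≤ 1 / 4))
      (mul_le_mul_of_nonneg_left hQ (by norm_num : (0 : ℝ) ≤ 1 / 4))) hc.le
  nlinarith [this]


lemma sq_of_01 {x : ℝ} (h : x = 0 ∨ x = 1) : x ^ 2 = x := by
  rcases h with rfl | rfl <;> norm_num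

lemma abs_sub_phi_le (ha : ∀ ω l, a ω l = 0 ∨ a ω l = 1) {P : Matrix ι ι ℝ} (hP : IsStoch P)
    (ω : Ω) (i : ι) :
    |a ω i - phi (uu a P ω i)| ≤ 9 / 8 * ∑ l, P i l * (a ω l - a ω i) ^ 2 := by
  have h0 := uu_nonneg ha hP ω i
  have h1 := uu_le_one ha hP ω i
  rcases ha ω i with h | h
  · rw [h]
    have e : ∑ l, P i l * (a ω l - 0) ^ 2 = uu a P ω i := by
      unfold uu
      refine Finset.sum_congr rfl fun l _ => ?_
      rw [sub_zero, sq_of_01 (ha ω l)]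
    rw [e, zero_sub, abs_neg, abs_of_nonneg (phi_nonneg_of _ h0 h1)]
    exact phi_le _ h0
  · rw [h]
    have e : ∑ l, P i l * (a ω l - 1) ^ 2 = 1 - uu a P ω i := by
      have h2 : ∀ l, P i l * (a ω l - 1) ^ 2 = P i l - P i l * a ω l := by
        intro l
        have := sq_of_01 (ha ω l)
        linear_combination (P i l) * this
      simp only [h2, Finset.sum_sub_distrib, hP.2]
      rfl
    rw [e, one_sub_phi, abs_of_nonneg (phi_nonneg_of _ (by linarith) (by linarith))]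
    exact phi_le _ (by linarith)

lemma ZZ_le (hμ : ∀ ω, 0 ≤ μ ω) (ha : ∀ ω l, a ω l = 0 ∨ a ω l = 1) {P : Matrix ι ι ℝ}
    (hP : IsStoch P) (i : ι) :
    ZZ μ a P i ≤ 9 / 8 * ∑ l, P i l * dd μ a i l := by
  unfold ZZ dd nsq
  calc ∑ ω, μ ω * |a ω i - phi (uu a P ω i)|
      ≤ ∑ ω, μ ω * (9 / 8 * ∑ l, P i l * (a ω l - a ω i) ^ 2) :=
        Finset.sum_le_sum fun ω _ =>
          mul_le_mul_of_nonneg_left (abs_sub_phi_le ha hP ω i) (hμ ω)
    _ = _ := by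
        simp only [Finset.mul_sum]
        rw [Finset.sum_comm]
        refine Finset.sum_congr rfl fun l _ => Finset.sum_congr rfl fun ω _ => by ring

lemma ZZ_nonneg (hμ : ∀ ω, 0 ≤ μ ω) (P : Matrix ι ι ℝ) (i : ι) : 0 ≤ ZZ μ a P i :=
  Finset.sum_nonneg fun ω _ => mul_nonneg (hμ ω) (abs_nonneg _)

lemma ZZ_sq_le (hμ : ∀ ω, 0 ≤ μ ω) (ha : ∀ ω l, a ω l = 0 ∨ a ω l = 1) {P : Matrix ι ι ℝ}
    (hP : IsStoch P) (i : ι) :
    ZZ μ a P i ^ 2 ≤ 81 / 64 * ∑ l, P i l * dd μ a i l ^ 2 := by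
  have h := sq_avg_le (P i) (hP.1 i) (hP.2 i) (fun l => dd μ a i l) (8 / 9 * ZZ μ a P i)
    (mul_nonneg (by norm_num) (ZZ_nonneg hμ P i))
    (by have := ZZ_le hμ ha hP i; linarith)
  nlinarith [h]

lemma sum_w_ZZ_le {w : ι → ℝ} {A : Matrix ι ι ℝ} (hw : ∀ i, 0 ≤ w i) (hμ : ∀ ω, 0 ≤ μ ω)
    (ha : ∀ ω l, a ω l = 0 ∨ a ω l = 1) (hA : IsStoch A) {m : ℕ} (hm : 1 ≤ m) :
    ∑ i, w i * ZZ μ a (avgPow A m) i ^ 2 ≤
      81 / 64 * ((1 / (m : ℝ)) * ∑ s ∈ Finset.range m, En μ a w A (s + 1)) := by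
  have hB := hA.avgPow hm
  have h1 : ∑ i, w i * ZZ μ a (avgPow A m) i ^ 2 ≤
      ∑ i, w i * (81 / 64 * ∑ l, avgPow A m i l * dd μ a i l ^ 2) :=
    Finset.sum_le_sum fun i _ => mul_le_mul_of_nonneg_left (ZZ_sq_le hμ ha hB i) (hw i)
  refine h1.trans (le_of_eq ?_)
  simp only [avgPow_sum]
  unfold En
  simp only [Finset.mul_sum]
  rw [Finset.sum_comm]
  refine Finset.sum_congr rfl fun s _ => Finset.sum_congr rfl fun c _ =>
    Finset.sum_congr rfl fun l _ => by ring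

/-- The abstract core inequality. -/
theorem core {w : ι → ℝ} {A : Matrix ι ι ℝ} (hw : ∀ i, 0 ≤ w i) (hA : IsStoch A)
    (hst : ∀ i, ∑ c, w c * A c i = w i) (hμ : ∀ ω, 0 ≤ μ ω)
    (ha : ∀ ω l, a ω l = 0 ∨ a ω l = 1) {n m t : ℕ} (hn : 1 ≤ n) (h3 : 3 * n ≤ m)
    (ht : t = n + m) (h7 : t ≤ 7 * n) :
    ∑ i, w i * ZZ μ a (avgPow A m) i ^ 2 +
        (t : ℝ) * ∑ i, ∑ j, w i * A i j * YY μ a (avgPow A m) i j ^ 2 ≤
      3024 * ((1 / (t : ℝ)) * ∑ r ∈ Finset.range t, En μ a w A (r + 1)) := by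
  have hm : 1 ≤ m := by omega
  have hm' : (0 : ℝ) < m := by exact_mod_cast hm
  have hn' : (0 : ℝ) < n := by exact_mod_cast hn
  have ht0 : 0 < t := by omega
  have ht' : (0 : ℝ) < t := by exact_mod_cast ht0
  set S := ∑ r ∈ Finset.range t, En μ a w A (r + 1) with hS
  have hE : ∀ s, 0 ≤ En μ a w A s := En_nonneg hw hA
  have hS0 : 0 ≤ S := Finset.sum_nonneg fun r _ => hE _
  -- the `V` term
  set V := ∑ i, w i * ∑ j, A i j * YY μ a (avgPow A m) i j ^ 2 with hV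
  have hV0 : 0 ≤ V := Finset.sum_nonneg fun i _ => mul_nonneg (hw i)
    (Finset.sum_nonneg fun j _ => mul_nonneg (hA.1 i j) (sq_nonneg _))
  have hVe : ∑ i, ∑ j, w i * A i j * YY μ a (avgPow A m) i j ^ 2 = V := by
    rw [hV]
    refine Finset.sum_congr rfl fun i _ => ?_
    rw [Finset.mul_sum]
    exact Finset.sum_congr rfl fun j _ => by ring
  rw [hVe]
  set T := fun k => Wsum w A k (fun c i => GG μ a (avgPow A m) c i ^ 2) with hT
  have hT0 : ∀ k, 0 ≤ T k := fun k => Wsum_nonneg hw hA k fun c i => sq_nonneg _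
  have hB := hA.avgPow hm
  have hTle : ∀ k, k + m ≤ t → T k ≤ (1 / (m : ℝ)) * S := by
    intro k hk
    have h1 : T k ≤ Wsum w A k (fun c i => ∑ l, avgPow A m i l * dd μ a c l ^ 2) :=
      Wsum_le hw hA k fun c i => GG_sq_le hμ hB c i
    rw [Wsum_avg] at h1
    refine h1.trans (mul_le_mul_of_nonneg_left ?_ (by positivity))
    exact sum_shift_le _ hE hk
  -- sum the per-time inequality
  have hsum : (n : ℝ) * V ≤ 63 / 2 * (T n - T 0 + (4 / (m : ℝ)) * ∑ k ∈ Finset.range n,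
      (3 / 2 * T k + 1 / 4 * En μ a w A (k + (m + 1)) + 1 / 4 * En μ a w A (k + 1))) := by
    have h1 : ∑ _k ∈ Finset.range n, V ≤ ∑ k ∈ Finset.range n, 63 / 2 * (T (k + 1) - T k +
        (4 / (m : ℝ)) * (3 / 2 * T k + 1 / 4 * En μ a w A (k + (m + 1)) +
          1 / 4 * En μ a w A (k + 1))) :=
      Finset.sum_le_sum fun k _ => per_time hw hA hst hμ ha hm k
    simp only [Finset.sum_const, Finset.card_range, nsmul_eq_mul] at h1
    refine h1.trans (le_of_eq ?_)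
    rw [← Finset.mul_sum, Finset.sum_add_distrib, Finset.sum_range_sub, ← Finset.mul_sum]
  -- bound the pieces
  have hTn : T n ≤ (1 / (m : ℝ)) * S := hTle n (by omega)
  have hsum1 : ∑ k ∈ Finset.range n, 3 / 2 * T k ≤ 1 / 2 * S := by
    have h1 : ∑ k ∈ Finset.range n, 3 / 2 * T k ≤
        ∑ _k ∈ Finset.range n, 3 / 2 * ((1 / (m : ℝ)) * S) := by
      refine Finset.sum_le_sum fun k hk => mul_le_mul_of_nonneg_left (hTle k ?_) (by norm_num)
      have := Finset.mem_range.1 hk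
      omega
    refine h1.trans ?_
    simp only [Finset.sum_const, Finset.card_range, nsmul_eq_mul]
    have h3' : (3 : ℝ) * n ≤ m := by exact_mod_cast h3
    have : (n : ℝ) * (3 / 2 * (1 / (m : ℝ) * S)) = (3 * n) / m * (S / 2) := by
      field_simp
    rw [this]
    have h4 : (3 * (n : ℝ)) / m ≤ 1 := (div_le_one hm').2 h3'
    nlinarith
  have hsum2 : ∑ k ∈ Finset.range n, En μ a w A (k + (m + 1)) ≤ S := by
    have := sum_shift_le (fun s => En μ a w A s) hE (k := m) (m := n) (t := t) (by omega)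
    refine le_trans (le_of_eq ?_) this
    refine Finset.sum_congr rfl fun s _ => ?_
    congr 1
    omega
  have hsum3 : ∑ k ∈ Finset.range n, En μ a w A (k + 1) ≤ S := by
    have := sum_shift_le (fun s => En μ a w A s) hE (k := 0) (m := n) (t := t) (by omega)
    refine le_trans (le_of_eq ?_) this
    refine Finset.sum_congr rfl fun s _ => ?_
    congr 1
    omega
  have hall : ∑ k ∈ Finset.range n,
      (3 / 2 * T k + 1 / 4 * En μ a w A (k + (m + 1)) + 1 / 4 * En μ a w A (k + 1)) ≤ S := by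
    rw [Finset.sum_add_distrib, Finset.sum_add_distrib]
    have e1 : ∑ k ∈ Finset.range n, 1 / 4 * En μ a w A (k + (m + 1)) =
        1 / 4 * ∑ k ∈ Finset.range n, En μ a w A (k + (m + 1)) := (Finset.mul_sum _ _ _).symm
    have e2 : ∑ k ∈ Finset.range n, 1 / 4 * En μ a w A (k + 1) =
        1 / 4 * ∑ k ∈ Finset.range n, En μ a w A (k + 1) := (Finset.mul_sum _ _ _).symm
    rw [e1, e2]
    linarith
  have hc : 0 ≤ 4 / (m : ℝ) := by positivity
  have hnV : (n : ℝ) * V ≤ 315 / 2 * ((1 / (m : ℝ)) * S) := by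
    have h1 := mul_le_mul_of_nonneg_left hall hc
    have h2 : 4 / (m : ℝ) * S = 4 * ((1 / (m : ℝ)) * S) := by field_simp
    rw [h2] at h1
    have := hT0 0
    nlinarith
  -- numerology
  have hm43 : (1 / (m : ℝ)) * S ≤ 4 / 3 * ((1 / (t : ℝ)) * S) := by
    have htm : (t : ℝ) ≤ 4 / 3 * m := by
      have h1 : (t : ℝ) = n + m := by exact_mod_cast ht
      have h2 : (3 : ℝ) * n ≤ m := by exact_mod_cast h3
      linarith
    have : 1 / (m : ℝ) ≤ 4 / 3 * (1 / (t : ℝ)) := by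
      rw [div_le_iff₀ hm']
      have : 4 / 3 * (1 / (t : ℝ)) * m = (4 / 3 * m) / t := by field_simp
      rw [this, le_div_iff₀ ht']
      linarith
    nlinarith [mul_le_mul_of_nonneg_right this hS0]
  have htV : (t : ℝ) * V ≤ 7 * ((n : ℝ) * V) := by
    have h1 : (t : ℝ) ≤ 7 * n := by exact_mod_cast h7
    nlinarith [mul_le_mul_of_nonneg_right h1 hV0]
  have hZ := sum_w_ZZ_le (a := a) hw hμ ha hA hm
  have hZ2 : ∑ s ∈ Finset.range m, En μ a w A (s + 1) ≤ S := by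
    have := sum_shift_le (fun s => En μ a w A s) hE (k := 0) (m := m) (t := t) (by omega)
    refine le_trans (le_of_eq ?_) this
    refine Finset.sum_congr rfl fun s _ => ?_
    congr 1
    omega
  have hZ3 : (1 / (m : ℝ)) * ∑ s ∈ Finset.range m, En μ a w A (s + 1) ≤ (1 / (m : ℝ)) * S :=
    mul_le_mul_of_nonneg_left hZ2 (by positivity)
  have hx : 0 ≤ (1 / (t : ℝ)) * S := by positivity
  nlinarith

end Chain


/-! ## Nested cuts of a real function on `Fin n` -/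

section Cuts

variable {n : ℕ}

/-- Sorted values of `h`. -/
noncomputable def sv (h : Fin n → ℝ) (i : ℕ) : ℝ :=
  if hi : i < n then h (Tuple.sort h ⟨i, hi⟩) else 0

lemma sv_mono (h : Fin n → ℝ) {i j : ℕ} (hij : i ≤ j) (hj : j < n) : sv h i ≤ sv h j := by
  unfold sv
  rw [dif_pos (lt_of_le_of_lt hij hj), dif_pos hj]
  exact Tuple.monotone_sort h (show (⟨i, lt_of_le_of_lt hij hj⟩ : Fin n) ≤ ⟨j, hj⟩ from hij)

lemma sv_pos (h : Fin n → ℝ) (l : Fin n) : sv h ((Tuple.sort h).symm l).val = h l := by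
  unfold sv
  rw [dif_pos (Fin.is_lt _)]
  simp

/-- Cut weights. -/
noncomputable def cutμ (h : Fin n → ℝ) (r : Fin n) : ℝ :=
  if r.val = 0 then 0 else sv h r.val - sv h (r.val - 1)

/-- Cut indicators. -/
noncomputable def cuta (h : Fin n → ℝ) (r l : Fin n) : ℝ :=
  if r.val ≤ ((Tuple.sort h).symm l).val then 1 else 0

lemma cutμ_nonneg (h : Fin n → ℝ) (r : Fin n) : 0 ≤ cutμ h r := by
  unfold cutμ
  split_ifs with h0
  · exact le_rfl
  · exact sub_nonneg.2 (sv_mono h (Nat.sub_le _ _) r.is_lt)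

lemma cuta_01 (h : Fin n → ℝ) (r l : Fin n) : cuta h r l = 0 ∨ cuta h r l = 1 := by
  unfold cuta
  split_ifs
  · exact Or.inr rfl
  · exact Or.inl rfl

lemma sum_cut (h : Fin n → ℝ) {q : ℕ} (hq : q < n) :
    ∑ r : Fin n, cutμ h r * (if r.val ≤ q then (1 : ℝ) else 0) = sv h q - sv h 0 := by
  set f : ℕ → ℝ := fun i => if i = 0 then 0 else sv h i - sv h (i - 1) with hf
  have key : ∀ q : ℕ, ∑ i ∈ Finset.range (q + 1), f i = sv h q - sv h 0 := by
    intro q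
    induction q with
    | zero => simp [hf]
    | succ q ih =>
      rw [Finset.sum_range_succ, ih]
      simp [hf]
  have e1 : ∑ r : Fin n, cutμ h r * (if r.val ≤ q then (1 : ℝ) else 0) =
      ∑ i ∈ Finset.range n, f i * (if i ≤ q then (1 : ℝ) else 0) :=
    Fin.sum_univ_eq_sum_range (fun i => f i * (if i ≤ q then (1 : ℝ) else 0)) n
  rw [e1, ← key q]
  symm
  have hsub : Finset.range (q + 1) ⊆ Finset.range n := by
    intro i hi
    simp only [Finset.mem_range] at hi ⊢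
    omega
  rw [← Finset.sum_subset hsub]
  · refine Finset.sum_congr rfl fun i hi => ?_
    have : i ≤ q := by
      have := Finset.mem_range.1 hi
      omega
    rw [if_pos this, mul_one]
  · intro i _ hi
    have : ¬ i ≤ q := by
      intro hh
      exact hi (Finset.mem_range.2 (by omega))
    rw [if_neg this, mul_zero]

lemma cut_repr (h : Fin n → ℝ) (l : Fin n) :
    h l = sv h 0 + ∑ r, cutμ h r * cuta h r l := by
  have := sum_cut h (Fin.is_lt ((Tuple.sort h).symm l))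
  rw [sv_pos] at this
  unfold cuta
  rw [this]
  ring

lemma cut_dist_aux (h : Fin n → ℝ) (l c : Fin n)
    (hlc : ((Tuple.sort h).symm c).val ≤ ((Tuple.sort h).symm l).val) :
    ∑ r, cutμ h r * (cuta h r l - cuta h r c) ^ 2 = h l - h c := by
  have e : ∀ r, (cuta h r l - cuta h r c) ^ 2 = cuta h r l - cuta h r c := by
    intro r
    unfold cuta
    split_ifs with h1 h2 h2
    · norm_num
    · norm_num
    · omega
    · norm_num
  simp only [e, mul_sub, Finset.sum_sub_distrib]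
  have h1 := cut_repr h l
  have h2 := cut_repr h c
  linarith

lemma cut_dist (h : Fin n → ℝ) (l c : Fin n) :
    ∑ r, cutμ h r * (cuta h r l - cuta h r c) ^ 2 = |h l - h c| := by
  rcases le_total ((Tuple.sort h).symm c).val ((Tuple.sort h).symm l).val with hlc | hlc
  · rw [cut_dist_aux h l c hlc, abs_of_nonneg]
    have := sv_mono h hlc (Fin.is_lt _)
    rw [sv_pos, sv_pos] at this
    linarith
  · have e : ∀ r, (cuta h r l - cuta h r c) ^ 2 = (cuta h r c - cuta h r l) ^ 2 := by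
      intro r; ring
    simp only [e]
    rw [cut_dist_aux h c l hlc, abs_of_nonpos]
    · ring
    · have := sv_mono h hlc (Fin.is_lt _)
      rw [sv_pos, sv_pos] at this
      linarith

end Cuts

end Crest.Agent.MarkovCotype
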